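import Vale.Agent.P352X.Api2b
import Vale.Agent.P352X.Api1C

/-!
# P352X, row F2: geometry of double cones and charge densities
-/

set_option linter.all false

noncomputable section

open Filter Topology Set
open scoped ContDiff

namespace Vale.Agent.P352X.Fp

open Vale.Agent.P352 Vale.Agent.P352.GF Vale.Agent.P352.BW Vale.Agent.P352.H496
open Vale.Agent.P352.H755 Vale.Agent.P352.H15
open Vale.Agent.P352.H246 (In)
open Ap

/-! ### wedges and double cones -/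

lemma md_nonneg {x y : V} (hx : 0 ≤ x o ∧ 0 ≤ mu x) (hy : 0 ≤ y o ∧ 0 ≤ mu y) : 0 ≤ mdot x y := by
  obtain ⟨a1, a2, a3⟩ := (cone_iff x).1 hx
  obtain ⟨b1, b2, b3⟩ := (cone_iff y).1 hy
  rw [mdot_null, sub_nonneg]
  refine (le_abs_self _).trans (abs_le_of_sq_le_sq ((d2_sq_le _ _).trans ?_) (by positivity))
  have := mul_le_mul a3 b3 (d2_nonneg _) (by positivity)
  nlinarith [sq_nonneg (al x * be y - be x * al y)]

/-- opposite wedges are spacelike separated -/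
lemma wdg_opp {a b v x z : V} (ha : IsNull a) (hb : IsNull b) (hx : x ∈ Wdg a b v)
    (hz : z ∈ Wdg b a v) : mdot (x - z) (x - z) < 0 := by
  by_contra! h
  have hs : ∀ n : V, mdot n (x - z) = mdot n (x - v) - mdot n (z - v) := fun n => by
    rw [← md_sub, sub_sub_sub_cancel_right]
  rcases le_total 0 ((x - z) o) with h0 | h0
  · linarith [md_nonneg ⟨ha.2.le, ha.1.ge⟩ ⟨h0, h⟩, hs a, hx.1, hz.2]
  · have := md_nonneg (y := -(x - z)) ⟨hb.2.le, hb.1.ge⟩ ⟨neg_nonneg.2 h0, by rwa [mu_neg]⟩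
    rw [md_neg] at this
    linarith [hs b, hx.2, hz.1]

lemma abs_le_time {w : V} (h : 0 ≤ mdot w w) (m : Ix) : |w m| ≤ |w 0| := by
  rw [mdot_eq] at h
  refine sq_le_sq.1 ?_
  fin_cases m <;> simp <;> nlinarith [sq_nonneg (w 1), sq_nonneg (w 2), sq_nonneg (w 3)]

lemma norm_dc {y z : V} {r : ℝ} (h : z ∈ dc y r) : ‖z‖ ≤ ‖y‖ + 3 * |r| := by
  have h0 : 0 < (z - (y - bas o r)) 0 := h.1.2
  have h1 := abs_le_time h.1.1.le
  rw [abs_of_pos h0] at h1
  have h2 : 0 < (y + bas o r - z) 0 := h.2.2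
  have h3 : ∀ m, |bas o r m| ≤ |r| := fun m => by
    unfold bas
    split_ifs <;> simp
  refine (pi_norm_le_iff_of_nonneg (by positivity)).2 fun m => ?_
  have h4 := abs_le.1 (h1 m)
  have h5 := abs_le.1 (h3 m)
  have h6 := abs_le.1 (show |y m| ≤ ‖y‖ from norm_le_pi_norm y m)
  have h7 : bas o r 0 = r := rfl
  simp only [Pi.sub_apply, Pi.add_apply, h7] at h2 h4
  rw [Real.norm_eq_abs, abs_le]
  constructor <;> linarith [le_abs_self r]

lemma norm_cdc (y : V) (r : ℝ) : ∀ z ∈ closure (dc y r), ‖z‖ ≤ ‖y‖ + 3 * |r| :=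
  closure_minimal (fun _ h => norm_dc h) (isClosed_le continuous_norm continuous_const)

lemma axis_dc (y : V) {r s : ℝ} (h : s ∈ Ioo (-r) r) : y + bas o s ∈ dc y r := by
  have e : ∀ t : ℝ, 0 < t → bas o t ∈ Fc := fun t ht =>
    ⟨by simpa [mdot_eq, bas, o] using ht.ne', ht⟩
  have e1 : y + bas o s - (y - bas o r) = bas o (s + r) := by
    funext n; simp only [bas, Pi.add_apply, Pi.sub_apply]; split_ifs <;> ring
  have e2 : y + bas o r - (y + bas o s) = bas o (r - s) := by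
    funext n; simp only [bas, Pi.add_apply, Pi.sub_apply]; split_ifs <;> ring
  exact ⟨e1 ▸ e _ (by linarith [h.1]), e2 ▸ e _ (by linarith [h.2])⟩

lemma axis_cdc (y : V) {r s : ℝ} (hr : 0 < r) (h : s ∈ Icc (-r) r) :
    y + bas o s ∈ closure (dc y r) := by
  have c : Continuous fun s : ℝ => y + s • bas o 1 := by fun_prop
  have h' : s ∈ closure (Ioo (-r) r) := by rwa [closure_Ioo (by linarith)]
  have := map_mem_closure (f := fun s : ℝ => y + s • bas o 1) (t := dc y r) c h' fun t hs => by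
    simpa only [← Ap.bas_smul] using axis_dc y hs
  simpa only [← Ap.bas_smul] using this

lemma cs3 {u s : V} {p q : ℝ} (hp : 0 < p) (hq : 0 < q)
    (h1 : p ^ 2 = u 1 ^ 2 + u 2 ^ 2 + u 3 ^ 2) (h2 : s 1 ^ 2 + s 2 ^ 2 + s 3 ^ 2 < q ^ 2) :
    |u 1 * s 1 + u 2 * s 2 + u 3 * s 3| < p * q := by
  refine abs_lt_of_sq_lt_sq ?_ (by positivity)
  have := mul_lt_mul_of_pos_left h2 (pow_pos hp 2)
  nlinarith [sq_nonneg (u 1 * s 2 - u 2 * s 1), sq_nonneg (u 1 * s 3 - u 3 * s 1),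
    sq_nonneg (u 2 * s 3 - u 3 * s 2)]

/-- points that are spacelike to a closed double cone are separated from it by a wedge -/
lemma ex_wdg {y z : V} {r : ℝ} (hr : 0 < r) (hz : z ∉ Jc (closure (dc y r))) :
    ∃ a b v, IsNull a ∧ IsNull b ∧ 0 < mdot a b ∧ z ∈ Wdg a b v ∧ dc y r ⊆ Wdg b a v := by
  have h : ∀ s ∈ Icc (-r) r, mdot (z - (y + bas o s)) (z - (y + bas o s)) < 0 := fun s hs =>
    lt_of_not_ge fun k => hz ⟨_, axis_cdc y hr hs, k⟩
  have h1 := h r ⟨by linarith, le_rfl⟩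
  have h2 := h (-r) ⟨le_rfl, by linarith⟩
  obtain ⟨u, rfl⟩ : ∃ u, z = y + u := ⟨z - y, by simp⟩
  simp [mdot_eq, bas, o] at h1 h2
  have h3 : 0 < u 1 ^ 2 + u 2 ^ 2 + u 3 ^ 2 := by nlinarith [sq_nonneg (u 0 - r)]
  obtain ⟨p, hp, e⟩ : ∃ p : ℝ, 0 < p ∧ p ^ 2 = u 1 ^ 2 + u 2 ^ 2 + u 3 ^ 2 :=
    ⟨Real.sqrt _, Real.sqrt_pos.2 h3, Real.sq_sqrt h3.le⟩
  have k1 := abs_lt.1 (abs_lt_of_sq_lt_sq (show (u 0 - r) ^ 2 < p ^ 2 by nlinarith) hp.le)
  have k2 := abs_lt.1 (abs_lt_of_sq_lt_sq (show (u 0 + r) ^ 2 < p ^ 2 by nlinarith) hp.le)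
  obtain ⟨q, e'⟩ : ∃ q : ℝ, q * (u 1 ^ 2 + u 2 ^ 2 + u 3 ^ 2) = r * p :=
    ⟨r / p, by rw [← e]; field_simp⟩
  refine ⟨![p, u 1, u 2, u 3], ![p, -u 1, -u 2, -u 3], y + ![0, q * u 1, q * u 2, q * u 3],
    ⟨?_, hp⟩, ⟨?_, hp⟩, ?_, ⟨?_, ?_⟩, fun x hx => ?_⟩
  · simp [mdot_eq]; linarith
  · simp [mdot_eq]; linarith
  · simp [mdot_eq]; linarith
  · simp [mdot_eq, Matrix.vecHead, Matrix.vecTail]; linarith [mul_pos hp (sub_pos.2 k2.2)]
  · simp [mdot_eq, Matrix.vecHead, Matrix.vecTail]; linarith [mul_pos hp (sub_pos.2 k1.1)]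
  · obtain ⟨s, rfl⟩ : ∃ s, x = y + s := ⟨x - y, by simp⟩
    obtain ⟨⟨a1, a2⟩, a3, a4⟩ := hx
    simp [mdot_eq, bas, o] at a1 a2 a3 a4
    have b1 := abs_lt.1 (cs3 (s := s) hp (show 0 < s 0 + r by linarith) e (by linarith))
    have b2 := abs_lt.1 (cs3 (s := s) hp (show 0 < r - s 0 by linarith) e (by linarith))
    constructor
    · simp [mdot_eq, Matrix.vecHead, Matrix.vecTail]; linarith
    · simp [mdot_eq, Matrix.vecHead, Matrix.vecTail]; linarith

lemma jc_bd {K : Set V} {ρ M : ℝ} (hK : ∀ x ∈ K, ‖x‖ ≤ ρ) {z : V} (hz : z ∈ Jc K)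
    (h : |z o| ≤ M) : ‖z‖ ≤ M + 2 * ρ := by
  obtain ⟨x, hx, k⟩ := hz
  have h0 := (norm_nonneg x).trans (hK x hx)
  have h1 : ∀ m, |x m| ≤ ρ := fun m => (norm_le_pi_norm x m).trans (hK x hx)
  refine (pi_norm_le_iff_of_nonneg (by linarith [abs_nonneg (z o)])).2 fun m => ?_
  have h2 := abs_le_time k m
  have h3 : |z m| ≤ |z m - x m| + |x m| := by simpa using abs_add_le (z m - x m) (x m)
  have h4 : |z 0 - x 0| ≤ |z 0| + |x 0| := abs_sub _ _
  have h5 : |z 0| ≤ M := h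
  rw [Real.norm_eq_abs]
  simp only [Pi.sub_apply] at h2
  linarith [h1 m, h1 0]

/-! ### velocity fields -/

/-- the velocity field of a curve of Poincaré maps -/
lemma isSim {L : ℝ → Ix → V} {x : ℝ → V} {ξ : V → V} (h0 : L 0 = GF.one) (hL : ∀ e, IsLor (L e))
    (h : ∀ n z, HasDerivAt (fun e => sim 1 (L e) (x e) z n) (ξ z n) 0) : IsSim 0 ξ := by
  have d0 : ∀ n, HasDerivAt (fun e => x e n) (ξ 0 n) 0 := fun n => by simpa [sim] using h n 0
  have d1 : ∀ m n, HasDerivAt (fun e => L e m n) (ξ (bas m 1) n - ξ 0 n) 0 := fun m n => by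
    simpa [sim, bas] using (h n (bas m 1)).fun_sub (d0 n)
  refine ⟨ξ 0, fun m n => ξ (bas m 1) n - ξ 0 n, fun m n => ?_, fun z n => (h n z).unique ?_⟩
  · have k := HasDerivAt.fun_sum fun k (_ : k ∈ Finset.univ) =>
      ((d1 m k).const_mul (eta k)).fun_mul (d1 n k)
    have e : (fun e => ∑ k, eta k * L e m k * L e n k) = fun _ => bas m (eta m) n :=
      funext fun e => (hL e).1 m n
    rw [e] at k
    have := k.unique (hasDerivAt_const _ _)
    simp [h0, GF.one, bas, Finset.sum_add_distrib] at this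
    simp only [bas]
    linarith
  · simpa [sim] using (d0 n).fun_add (HasDerivAt.fun_sum fun m (_ : m ∈ Finset.univ) =>
      (d1 m n).const_mul (z m))

lemma smooth_sim {ξ : V → V} (h : IsSim 0 ξ) : ContDiff ℝ ∞ ξ := by
  obtain ⟨c, w, -, e⟩ := h
  refine contDiff_pi.2 fun n => ?_
  simp only [e]
  fun_prop

/-! ### comparison of charge densities -/

lemma dr_congr {f g : V → ℝ} {x : V} (e : f =ᶠ[𝓝 x] g) (hf : ContDiff ℝ ∞ f) (hg : ContDiff ℝ ∞ g)
    (m : Ix) : dr m f x = dr m g x := by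
  rw [dr_eq (hf.differentiable (by simp) x), dr_eq (hg.differentiable (by simp) x), e.fderiv_eq]

lemma dr_const (m : Ix) (c : ℝ) (x : V) : dr m (fun _ => c) x = 0 := by simp [dr]

lemma dr_sub {f g : V → ℝ} (hf : ContDiff ℝ ∞ f) (hg : ContDiff ℝ ∞ g) (m : Ix) (x : V) :
    dr m (fun x => f x - g x) x = dr m f x - dr m g x := by
  have a := hf.differentiable (by simp) x
  have b := hg.differentiable (by simp) x
  rw [dr_eq a, dr_eq b, dr_eq (a.fun_sub b), fderiv_fun_sub a b]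
  rfl

lemma chg_near {K : Set V} {χ Ξ : V → ℝ} (h : Chg K χ Ξ) {z : V} (hz : z ∈ Jc K) (m : Ix) :
    ∀ᶠ x in 𝓝 z, χ x * dr m Ξ x = dr m Ξ x := by
  rcases h.2.2.2 z hz with k | k
  · filter_upwards [k] with x hx
    rw [hx, one_mul]
  · filter_upwards [k.eventually_nhds] with x hx
    rw [dr_congr hx h.2.1 contDiff_const, dr_const, mul_zero]

/-- two charge densities differ by a gradient near the causal hull -/
lemma chg_cmp {K : Set V} {ρ : ℝ} (hK : ∀ x ∈ K, ‖x‖ ≤ ρ) {χ Ξ χ' Ξ' : V → ℝ} (h : Chg K χ Ξ)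
    (h' : Chg K χ' Ξ') : ∃ φ, Tst φ ∧ ∀ m, ∀ z ∈ Jc K, ∀ᶠ x in 𝓝 z,
      χ' x * dr m Ξ' x - χ x * dr m Ξ x - dr m φ x = 0 := by
  obtain ⟨R, hR⟩ := h.2.2.1
  obtain ⟨R', hR'⟩ := h'.2.2.1
  obtain ⟨κ, k1, -, k2, -⟩ := ex_chi (isCompact_closedBall (0 : V) (max R R' + 2 * ρ)) isOpen_univ
    (subset_univ _)
  have s := h'.2.1.sub h.2.1
  have t : Tst fun x => (Ξ' x - Ξ x) * κ x := cs_mul_l s k1
  refine ⟨_, t, fun m z hz => ?_⟩
  have e : ∀ᶠ x in 𝓝 z, (Ξ' x - Ξ x) * κ x = Ξ' x - Ξ x := by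
    rcases le_total |z o| (max R R') with k | k
    · filter_upwards [k2 z (mem_closedBall_zero_iff.2 (jc_bd hK hz k))] with x hx
      rw [hx, mul_one]
    · rcases le_abs.1 k with k | k
      · filter_upwards [(hR z hz).1 ((le_max_left _ _).trans k),
          (hR' z hz).1 ((le_max_right _ _).trans k)] with x a b
        rw [a, b, sub_self, zero_mul]
      · filter_upwards [(hR z hz).2 (by linarith [le_max_left R R']),
          (hR' z hz).2 (by linarith [le_max_right R R'])] with x a b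
        rw [a, b, sub_self, zero_mul]
  filter_upwards [chg_near h hz m, chg_near h' hz m, e.eventually_nhds] with x a b d
  rw [a, b, dr_congr d t.1 s, dr_sub h'.2.1 h.2.1, sub_self]

/-! ### the standard charge densities -/

/-- charge densities at scale one -/
def Std (χ Ξ : V → ℝ) : Prop := Tst χ ∧ ContDiff ℝ ∞ Ξ ∧ (∀ z, ‖z‖ ≤ 4 → χ z = 1) ∧
  (∀ z, 1 ≤ z o → Ξ z = 1) ∧ ∀ z, z o ≤ -1 → Ξ z = 0

lemma ex_std : ∃ χ Ξ, Std χ Ξ := by
  obtain ⟨κ, k1, -, k2, -⟩ := ex_chi (isCompact_closedBall (0 : V) 4) isOpen_univ (subset_univ _)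
  obtain ⟨σ, s1, s2, s3, -⟩ := ex_step (show (-1 : ℝ) < 1 by norm_num)
  exact ⟨κ, fun z => σ (z o), k1, s1.comp (contDiff_apply ℝ ℝ o),
    fun z hz => (k2 z (mem_closedBall_zero_iff.2 hz)).self_of_nhds, fun z => s3 _, fun z => s2 _⟩

lemma Std.chg {χ Ξ : V → ℝ} (h : Std χ Ξ) {K : Set V} {ρ R : ℝ} (hK : ∀ x ∈ K, ‖x‖ ≤ ρ)
    (h0 : 0 < R) (hR : ρ ≤ R) : Chg K (fun z => χ (R⁻¹ • z)) fun z => Ξ (R⁻¹ • z) := by
  have c : Continuous fun z : V => z o := continuous_apply o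
  have e1 : ∀ z : V, R < z o → ∀ᶠ x in 𝓝 z, Ξ (R⁻¹ • x) = 1 := fun z hz => by
    filter_upwards [c.continuousAt.eventually (lt_mem_nhds hz)] with x hx
    exact h.2.2.2.1 _ (by rw [Pi.smul_apply, smul_eq_mul, le_inv_mul_iff₀ h0]; linarith)
  have e2 : ∀ z : V, z o < -R → ∀ᶠ x in 𝓝 z, Ξ (R⁻¹ • x) = 0 := fun z hz => by
    filter_upwards [c.continuousAt.eventually (gt_mem_nhds hz)] with x hx
    exact h.2.2.2.2 _ (by rw [Pi.smul_apply, smul_eq_mul, inv_mul_le_iff₀ h0]; linarith)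
  refine ⟨cs_smul (inv_ne_zero h0.ne') h.1, h.2.1.comp (contDiff_const_smul _),
    ⟨2 * R, fun z _ => ⟨fun k => e1 z (by linarith), fun k => e2 z (by linarith)⟩⟩, fun z hz => ?_⟩
  rcases le_or_gt |z o| R with k | k
  · left
    have k1 : ‖z‖ < 4 * R := by linarith [jc_bd hK hz k]
    filter_upwards [continuous_norm.continuousAt.eventually (gt_mem_nhds k1)] with x hx
    refine h.2.2.1 _ ?_
    rw [norm_smul, norm_inv, Real.norm_of_nonneg h0.le, inv_mul_le_iff₀ h0]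
    linarith
  · right
    rcases lt_abs.1 k with k | k
    · filter_upwards [e1 z k] with x hx
      rw [hx, (e1 z k).self_of_nhds]
    · filter_upwards [e2 z (by linarith)] with x hx
      rw [hx, (e2 z (by linarith)).self_of_nhds]

lemma dr_scale {Ξ : V → ℝ} (h : ContDiff ℝ ∞ Ξ) (s : ℝ) (m : Ix) (x : V) :
    dr m (fun z => Ξ (s • z)) x = s * dr m Ξ (s • x) := by
  have a := (h.differentiable (by simp) (s • x)).hasFDerivAt
  have b : HasFDerivAt (fun z => Ξ (s • z)) _ x := a.comp x ((hasFDerivAt_id x).const_smul s)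
  rw [dr_eq a.differentiableAt, dr_eq b.differentiableAt, b.fderiv]
  simp

end Vale.Agent.P352X.Fp
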