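import Vale.Agent.P352X.R.F2.A
import Vale.Agent.P352X.R.GRP.C
import Vale.Agent.P352.H246.Alg

/-!
# P352X, row F2: charges as operators
-/

set_option linter.all false

noncomputable section

open Filter Topology Set
open scoped ContDiff

namespace Vale.Agent.P352X.Fp

open Vale.Agent.P352 Vale.Agent.P352.GF Vale.Agent.P352.BW Vale.Agent.P352.H496
open Vale.Agent.P352.H755 Vale.Agent.P352.H15
open Vale.Agent.P352.H246 (In Al)
open UniformSpace (Completion)
open Complex (I)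
open Ap

variable {D : Type*} [NormedAddCommGroup D] [InnerProductSpace ℂ D]

/-! ### symmetric operators that commute with polynomials in the fields -/

section alg

variable {Q : Theory D} {P P' Y Y' : D → D} {K W : Set V} {B : GF.Fld D} {f g : Fn}

/-- symmetric operators -/
def Sy (P : D → D) : Prop := ∀ v w, inner ℂ (P v) w = inner ℂ v (P w)

lemma Sy.add (h : Sy P) (v w : D) : P (v + w) = P v + P w :=
  ext_inner_right ℂ fun u => by rw [h, inner_add_left, inner_add_left, h, h]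

lemma Sy.smul (h : Sy P) (a : ℂ) (v : D) : P (a • v) = a • P v :=
  ext_inner_right ℂ fun u => by rw [h, inner_smul_left, inner_smul_left, h]

lemma Sy.sub (h : Sy P) (h' : Sy P') : Sy fun v => P v - P' v := fun v w => by
  rw [inner_sub_left, inner_sub_right, h, h']

lemma al_comm (h : Sy P) (hc : ∀ B f v, Q.fld B → In K f → P (B f v) = B f (P v))
    (hY : Al Q K Y Y') : ∀ v, P (Y v) = Y (P v) := by
  induction hY with
  | one => exact fun _ => rfl
  | add X X' Y Y' _ _ a b => exact fun v => by rw [h.add, a, b]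
  | smul c X X' _ a => exact fun v => by rw [h.smul, a]
  | fld A B g X X' hA _ _ hg _ a => exact fun v => by rw [hc A g _ hA hg, a]

lemma al_cpt (hY : Al Q W Y Y') : ∃ K, IsCompact K ∧ K ⊆ W ∧ Al Q K Y Y' := by
  induction hY with
  | one => exact ⟨∅, isCompact_empty, empty_subset _, .one⟩
  | add X X' Y Y' _ _ a b =>
    obtain ⟨K, a1, a2, a3⟩ := a
    obtain ⟨K', b1, b2, b3⟩ := b
    exact ⟨K ∪ K', a1.union b1, union_subset a2 b2,
      .add _ _ _ _ (a3.mono subset_union_left) (b3.mono subset_union_right)⟩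
  | smul c X X' _ a => exact a.imp fun K a => ⟨a.1, a.2.1, .smul _ _ _ a.2.2⟩
  | fld A B g X X' hA hB e hg _ a =>
    obtain ⟨K, a1, a2, a3⟩ := a
    exact ⟨K ∪ tsupport g, a1.union hg.2.1, union_subset a2 hg.2.2,
      .fld _ _ _ _ _ hA hB e ⟨hg.1, hg.2.1, subset_union_right⟩ (a3.mono subset_union_left)⟩

lemma fld_sub (hB : Q.fld B) (hf : GF.IsTest f) (v w : D) : B f (v - w) = B f v - B f w := by
  obtain ⟨B', -, h⟩ := Q.adj B hB
  exact ext_inner_right ℂ fun u => by simp only [inner_sub_left, h f _ u hf]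

lemma fld_sum (hB : Q.fld B) (hf : GF.IsTest f) (v : Ix → D) :
    B f (∑ i, v i) = ∑ i, B f (v i) := by
  obtain ⟨B', -, h⟩ := Q.adj B hB
  exact ext_inner_right ℂ fun u => by simp only [sum_inner, h f _ u hf]

lemma fld_add (hB : Q.fld B) (hf : GF.IsTest f) (hg : GF.IsTest g) (v : D) :
    B (fun x => f x + g x) v = B f v + B g v := by
  simpa using Q.lin B f g 1 v hB hf hg

lemma fld_zero (hB : Q.fld B) (v : D) : B (fun _ => 0) v = 0 := by
  simpa using Grp.fld_smul hB 0 (f := fun _ => 0) sw_zero v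

lemma coe_sum (v : Ix → D) : ((∑ i, v i : D) : Completion D) = ∑ i, (v i : Completion D) :=
  map_sum (Completion.toComplL (𝕜 := ℂ)) v _

end alg

/-- generators of curves of unitary operators are symmetric -/
lemma gn_sym {H : Type*} [NormedAddCommGroup H] [InnerProductSpace ℂ H] [CompleteSpace H]
    {W : ℝ → H →L[ℂ] H} (hW : ∀ e v w, inner ℂ (W e v) (W e w) = inner ℂ v w) (h0 : W 0 = 1)
    {φ l ψ k : H} (h1 : Gn W φ l) (h2 : Gn W ψ k) : inner ℂ φ k = inner ℂ l ψ := by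
  have h := HasDerivAt.inner ℂ h1 h2
  simp only [hW, h0, ContinuousLinearMap.one_apply, inner_smul_left, inner_smul_right,
    Complex.conj_I] at h
  have := h.unique (hasDerivAt_const _ _)
  exact mul_left_cancel₀ Complex.I_ne_zero (by linear_combination this)

/-! ### the stress tensor smeared with tensor test functions -/

variable {c : Ctx D} {F G : Ix → Ix → Fn} {χ Ξ χ' Ξ' φ : V → ℝ} {ξ : V → V} {K : Set V}

lemma fT (c : Ctx D) (m n : Ix) : c.Q.fld (c.T m n) := Grp.T_fld c.hT m n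

lemma Tf_sy (hF : ∀ m n, GF.IsTest (F m n)) (e : ∀ m n, bar (F m n) = F m n) : Sy (c.Tf F) :=
  fun v w => by simp only [Ctx.Tf, sum_inner, inner_sum, c.hT.herm _ _ _ _ _ (hF _ _), e]

lemma Tf_lin (hF : ∀ m n, GF.IsTest (F m n)) (hG : ∀ m n, GF.IsTest (G m n)) (a : ℂ) (v : D) :
    c.Tf (fun m n x => F m n x + a * G m n x) v = c.Tf F v + a • c.Tf G v := by
  simp only [Ctx.Tf, c.Q.lin _ _ _ _ _ (fT c _ _) (hF _ _) (hG _ _), Finset.sum_add_distrib,
    Finset.smul_sum]

lemma Tf_loc (hF : ∀ m n, GF.IsTest (F m n)) {B : GF.Fld D} (hB : c.Q.fld B) {f : Fn}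
    (hf : GF.IsTest f) (h : ∀ m n, Sep (F m n) f) (v : D) :
    c.Tf F (B f v) = B f (c.Tf F v) := by
  simp only [Ctx.Tf, fld_sum hB hf, c.Q.loc _ _ _ _ _ (c.hT.bose _ _) hB (hF _ _) hf (h _ _)]

lemma test_dens (hχ : Tst χ) (hΞ : ContDiff ℝ ∞ Ξ) (hξ : IsSim 0 ξ) (m n : Ix) :
    GF.IsTest (dens χ Ξ ξ m n) := (in_dens hχ (subset_univ _) hΞ (smooth_sim hξ) m n).1

lemma tst_dr (h : Tst φ) (m : Ix) : Tst (dr m φ) := by
  rw [dr_eq' (h.1.differentiable (by simp))]
  exact cs_fderiv _ h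

/-- gradients carry no charge -/
lemma Tf_grad (h : Tst φ) (hξ : IsSim 0 ξ) (v : D) :
    c.Tf (fun m n x => ((dr m φ x * (eta n * ξ x n) : ℝ) : ℂ)) v = 0 := by
  have s := smooth_sim hξ
  obtain ⟨b, w, hw, e⟩ := hξ
  have t : ∀ n, Tst fun x => φ x * (eta n * ξ x n) := fun n => cs_mul_r h (by fun_prop)
  have d : ∀ m n, (fun x => ((dr m φ x * (eta n * ξ x n) : ℝ) : ℂ)) = fun x =>
      pd m (fun x => ((φ x * (eta n * ξ x n) : ℝ) : ℂ)) x +
        (-(eta n * w m n : ℝ) : ℂ) * (φ x : ℂ) := fun m n => by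
    funext x
    have a := (h.1.differentiable (by simp) x).hasFDerivAt
    have k : HasFDerivAt (fun x : V => eta n * ξ x n)
        (eta n • ∑ k, w k n • (ContinuousLinearMap.proj k : V →L[ℝ] ℝ)) x := by
      simp only [e, zero_mul, add_zero, mul_comm _ (w _ n)]
      exact ((HasFDerivAt.fun_sum fun k _ => (hasFDerivAt_apply k x).const_mul (w k n)).const_add
        _).const_mul _
    rw [pd_cx (a.fun_mul k).differentiableAt, dr_eq (a.fun_mul k).differentiableAt,
      (a.fun_mul k).fderiv, dr_eq a.differentiableAt]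
    simp [bas]
    ring
  have z : ∑ m, ∑ n, (-(eta n * w m n : ℝ) : ℂ) • c.T m n (fun x => (φ x : ℂ)) v = 0 := by
    refine (smul_eq_zero_iff_right (two_ne_zero' ℂ)).1 ?_
    rw [two_smul]
    nth_rw 1 [Finset.sum_comm]
    simp only [← Finset.sum_add_distrib]
    refine Finset.sum_eq_zero fun m _ => Finset.sum_eq_zero fun n _ => ?_
    rw [c.hT.symm n m _ _ (tst_sw h), ← add_smul, hw m n]
    simp
  simp only [Ctx.Tf, d, c.Q.lin _ _ _ _ _ (fT c _ _) (test_pd _ (tst_sw (t _))) (tst_sw h),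
    Finset.sum_add_distrib, z, add_zero]
  rw [Finset.sum_comm]
  exact Finset.sum_eq_zero fun n _ => c.hT.conserved n _ v (tst_sw (t n))

/-- comparison of two charges -/
lemma Tf_cmp {ρ : ℝ} (hK : ∀ x ∈ K, ‖x‖ ≤ ρ) (h : Chg K χ Ξ) (h' : Chg K χ' Ξ') (hξ : IsSim 0 ξ) :
    ∃ G : Ix → Ix → Fn, (∀ m n, In (Jc K)ᶜ (G m n)) ∧ (∀ m n, bar (G m n) = G m n) ∧
      ∀ v, c.Tf (dens χ' Ξ' ξ) v = c.Tf (dens χ Ξ ξ) v + c.Tf G v := by
  obtain ⟨φ, p, q⟩ := chg_cmp hK h h'
  have s := smooth_sim hξ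
  have i : ∀ m n, In (Jc K)ᶜ fun x =>
      (((χ' x * dr m Ξ' x - χ x * dr m Ξ x - dr m φ x) * (eta n * ξ x n) : ℝ) : ℂ) := fun m n =>
    in_cx (cs_mul_r (cs_sub (cs_sub (cs_mul_r h'.1 (smooth_dr h'.2.1 m))
      (cs_mul_r h.1 (smooth_dr h.2.1 m))) (tst_dr p m)) (by fun_prop))
      (tsupport_mul_subset_left.trans fun z hz k =>
        notMem_tsupport_iff_eventuallyEq.2 (q m z k) hz)
  refine ⟨_, i, fun m n => bar_cx _, fun v => ?_⟩
  have t := test_dens h.1 h.2.1 hξ
  have a := Tf_lin (c := c) (fun m n => sw_lin 1 (t m n) (i m n).1)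
    (fun m n => tst_sw (cs_mul_r (tst_dr p m) (show ContDiff ℝ ∞ fun x => eta n * ξ x n by
      fun_prop))) 1 v
  rw [Tf_grad p hξ, Tf_lin t fun m n => (i m n).1, smul_zero, add_zero, one_smul] at a
  rw [← a]
  congr 1
  funext m n x
  simp only [dens]
  push_cast
  ring

/-- the stress tensor outside of the causal hull commutes with the algebra of a double cone -/
lemma far_comm (j : JC c) {y : V} {r : ℝ} (hr : 0 < r) {X : Completion D →L[ℂ] Completion D}
    (hX : X ∈ c.N (dc y r)) (hG : ∀ m n, In (Jc (closure (dc y r)))ᶜ (G m n))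
    (e : ∀ m n, bar (G m n) = G m n) (v w : D) :
    inner ℂ ((c.Tf G w : D) : Completion D) (X v) = inner ℂ (w : Completion D) (X (c.Tf G v : D)) := by
  simp only [Ctx.Tf, coe_sum, sum_inner, map_sum, inner_sum]
  refine Finset.sum_congr rfl fun m _ => Finset.sum_congr rfl fun n _ => ?_
  nth_rw 1 [← e m n]
  refine in_ind (P := fun f => inner ℂ ((c.T m n (bar f) w : D) : Completion D) (X v) =
    inner ℂ (w : Completion D) (X (c.T m n f v : D))) ?_ (fun f g a b p q => ?_) (fun z hz => ?_)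
    (hG m n)
  · rw [show (bar fun _ => 0) = fun _ => 0 from funext fun _ => star_zero ℂ]
    simp [fld_zero (fT c m n), Completion.coe_zero]
  · rw [show (bar fun x => f x + g x) = fun x => bar f x + bar g x from
      funext fun _ => star_add _ _, fld_add (fT c m n) (test_bar a.1) (test_bar b.1),
      fld_add (fT c m n) a.1 b.1, Completion.coe_add, Completion.coe_add, map_add, inner_add_left,
      inner_add_right, p, q]
  · obtain ⟨a, b, u, ha, hb, hab, k1, k2⟩ := ex_wdg hr hz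
    exact ⟨_, (wdg_open a b u).mem_nhds k1, fun f hf =>
      (Grp.afs_T c.hN c.hT m n (in_mono hf inter_subset_left)).2 X
        (j.loc ha hb hab Subset.rfl k2 X hX) v w⟩

/-! ### dilations -/

lemma usc_eq {R : ℝ} (hR : 0 < R) : Usc c.Q R R = Ug c.Q R GF.one 0 := by
  rw [Usc, Real.sqrt_mul_self hR.le, div_self hR.ne', Real.sqrt_one, sub_self, T.bst_zero]

lemma Tv_dil (g : GRP c) (hF : ∀ m n, GF.IsTest (F m n)) {R : ℝ} (hR : 0 < R) :
    c.Tv F = Usc c.Q R R (c.Tv fun m n x => F m n (R • x)) := by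
  have e : ∀ x, sim R GF.one 0 x = R • x := fun x => by
    funext n
    simp [sim, GF.one, bas]
  simp only [usc_eq hR, Ctx.Tv, Ctx.Tf, coe_sum, map_sum, g.coe _ _ _ _ hR H496.isLor_one]
  refine Finset.sum_congr rfl fun m _ => Finset.sum_congr rfl fun n _ => ?_
  have := c.hT.cov m n R GF.one 0 _ c.Q.vac hR H496.isLor_one (hF m n)
  rw [c.Q.U_vac _ _ _ hR H496.isLor_one] at this
  simp [this, e, GF.one, bas, apply_ite Complex.ofReal]

/-- the standard charges of the vacuum tend to zero weakly -/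
lemma std_null (g : GRP c) (hb : BAS c) (h : Std χ Ξ) (hξ : IsSim 0 ξ) (u : Completion D) :
    Tendsto (fun n : ℕ => inner ℂ (c.Tv (dens (fun z => χ (((n : ℝ) + 1)⁻¹ • z))
      (fun z => Ξ (((n : ℝ) + 1)⁻¹ • z)) ξ)) u) atTop (𝓝 0) := by
  have hξ' := hξ
  obtain ⟨b, w, hw, e⟩ := hξ'
  have t0 := test_dens h.1 h.2.1 (ξ := fun z n => ∑ m, z m * w m n) ⟨0, w, hw, by simp⟩
  have t1 := test_dens h.1 h.2.1 (ξ := fun _ => b) ⟨b, 0, by simp, by simp⟩
  have p : ∀ n : ℕ, 0 < (n : ℝ) + 1 := fun n => by positivity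
  have l : Tendsto (fun n : ℕ => ((((n : ℝ) + 1)⁻¹ : ℝ) : ℂ)) atTop (𝓝 0) := by
    simpa only [one_div, Complex.ofReal_zero] using
      (tendsto_one_div_add_atTop_nhds_zero_nat (𝕜 := ℝ)).ofReal
  have k := hb.wn ℕ atTop _ _ (fun _ => 0) _ _ u (fun n => ⟨p n, p n⟩)
    (.inl (tendsto_natCast_atTop_atTop.atTop_add tendsto_const_nhds))
    ((tendsto_const_nhds (x := c.Tv (dens χ Ξ fun z n => ∑ m, z m * w m n))).add
      (l.smul_const (c.Tv (dens χ Ξ fun _ => b)))) (by
        simp only [zero_smul, add_zero, Ctx.Tv, Ctx.Tf, om, Completion.inner_coe, inner_sum,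
          g.perp _ _ _ (t0 _ _), Finset.sum_const_zero])
  refine k.congr fun n => ?_
  have hc := h.chg (K := ∅) (ρ := 0) (by simp) (p n) (p n).le
  rw [g.ut0, ContinuousLinearMap.one_apply, Tv_dil g (test_dens hc.1 hc.2.1 hξ) (p n), Ctx.Tv,
    Ctx.Tv, Ctx.Tv, ← Completion.coe_smul, ← Completion.coe_add, ← Tf_lin t0 t1]
  congr 4
  funext m k x
  have := (p n).ne'
  simp only [dens, dr_scale h.2.1, inv_smul_smul₀ this, e, Pi.smul_apply, smul_eq_mul, mul_assoc,
    ← Finset.mul_sum]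
  rw [← Complex.ofReal_mul, ← Complex.ofReal_add]
  congr 1
  field_simp
  ring

end Vale.Agent.P352X.Fp
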